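import Claimed.Agent.R282.Rep.T.Klimyk
import Claimed.Agent.R282.Rep.T.Sym
import Claimed.Agent.R282.Rep.T.Pow
import Claimed.Agent.R282.Rep.T.Small
import Claimed.Agent.R282.Rep.K.DQ

/-!
# Row 282, layers C + R : PUBLIC contracts (architect helper103) -- GLUE, no sorry of its own

Consumers: Top / K2 (helper40): `rep_bridge` (T1), `occ_swap`, `occ_rot` (T2), `occ_smul` (T3), `occ_zero` (T5), `rep_dq` (K); see `Rep/ForTop.lean`.
S2AB (helper64): `rep_exists`, `isHW_kron`, `rep_wcf`, `rep_klimyk2`, `rep_split_span`, `rep_casimir`, `rep_mult_weyl`, `rep_top`, `rep_bridge`.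
Col (helper216): `rootVec`, `isRootVec_rootVec`, `rep_irred`, `rep_unique`, `rep_cartan`, `rep_coeff` (L2.3), `rep_bridge`.
-/

set_option autoImplicit false

namespace Claimed.Agent.R282

open Claims.C0456 Matrix

variable {n : ℕ}
variable {ι ι' ι₁ ι₂ ι₃ : Type} [Fintype ι] [DecidableEq ι] [Fintype ι'] [DecidableEq ι']
  [Fintype ι₁] [DecidableEq ι₁] [Fintype ι₂] [DecidableEq ι₂] [Fintype ι₃] [DecidableEq ι₃]

/-- Weyl characters are unique -/
theorem weylChar_unique (M : Fin n → ℤ) (m m' : (Fin n → ℤ) → ℤ) (h : IsWeylChar2 M m)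
    (h' : IsWeylChar2 M m') : m = m' := by
  funext γ
  rw [weylChar_kostant M m h γ, weylChar_kostant M m' h' γ]

/-- **Steinberg's formula**: the frozen `tensorMult` is the multiplicity -/
theorem rep_steinberg (hn : 2 ≤ n) (L M X : Fin n → ℤ) (hL : IsDominantWeight2 L)
    (hM : IsDominantWeight2 M) (hX : IsDominantWeight2 X) {ι₁ ι₂ : Type} [Fintype ι₁]
    [DecidableEq ι₁] [Fintype ι₂] [DecidableEq ι₂] (R₁ : StarRep Ty.D n ι₁)
    (R₂ : StarRep Ty.D n ι₂) (v₁ : ι₁ → ℂ) (v₂ : ι₂ → ℂ) (h₁ : IsHW R₁ v₁ (halfV L))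
    (h₂ : IsHW R₂ v₂ (halfV M)) :
    ((R₁.kron R₂).hwMult (tsub (R₁.cyc v₁) (R₂.cyc v₂)) (halfV X) : ℤ) = tensorMult L M X := by
  rw [rep_klimyk0 hn L M X hL hM hX R₁ R₂ v₁ v₂ h₁ h₂, ← steinberg_assembly]
  have hw := rep_wcf hn R₂ v₂ M hM h₂
  congr 1
  funext y
  exact weylChar_kostant M _ hw _

/-- **(T1) the bridge** -/
theorem rep_bridge (hn : 2 ≤ n) (L M X : Fin n → ℤ) (hL : IsDominantWeight2 L)
    (hM : IsDominantWeight2 M) (hX : IsDominantWeight2 X) : tensorMult L M X ≠ 0 ↔ Occ L M X := by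
  obtain ⟨m₁, R₁, v₁, h₁⟩ := rep_exists L hL
  obtain ⟨m₂, R₂, v₂, h₂⟩ := rep_exists M hM
  rw [rep_occ_iff hn L M X R₁ R₂ v₁ v₂ h₁ h₂, ← rep_steinberg hn L M X hL hM hX R₁ R₂ v₁ v₂ h₁ h₂]
  exact Int.natCast_ne_zero

/-- **Klimyk's formula for an arbitrary Weyl character** (form asked by helper64) -/
theorem rep_klimyk2 (hn : 2 ≤ n) (L M X : Fin n → ℤ) (hL : IsDominantWeight2 L)
    (hM : IsDominantWeight2 M) (hX : IsDominantWeight2 X) (m : (Fin n → ℤ) → ℤ)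
    (hm : IsWeylChar2 M m) :
    Occ L M X ↔ altWD (fun y => m (X + rho2 n - y)) (L + rho2 n) ≠ 0 := by
  obtain ⟨m₁, R₁, v₁, h₁⟩ := rep_exists L hL
  obtain ⟨m₂, R₂, v₂, h₂⟩ := rep_exists M hM
  rw [rep_occ_iff hn L M X R₁ R₂ v₁ v₂ h₁ h₂, weylChar_unique M m _ hm (rep_wcf hn R₂ v₂ M hM h₂),
    ← rep_klimyk0 hn L M X hL hM hX R₁ R₂ v₁ v₂ h₁ h₂]
  exact Int.natCast_ne_zero.symm

/-- **(K)** occurrence = non-vanishing of the double quotient (6.4) -/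
theorem rep_dq (hn : 2 ≤ n) (L M X : Fin n → ℤ) (hL : IsDominantWeight2 L) (hM : IsDominantWeight2 M)
    (hX : IsDominantWeight2 X) :
    Occ L M X ↔ ∃ d : Fin n → ℕ, L + M - X = 2 • ∑ i, d i • simpleRootD n i ∧
      DQne ℚ n (cwt L) (cwt M) d := by
  rw [rep_dqC hn L M X hL hM hX]
  simp only [dqne_baseChange]

end Claimed.Agent.R282
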