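import Claimed.Prelude.Def_0456
import Claimed.Agent.R282.S2AB.Defs
import Claimed.Agent.R282.K2.Iface

/-!
# Row 282, layers C + R (bridge `tensorMult` <-> multiplicity, representations of `so(2n)`): definitions

PUBLIC MODEL = `StarRep`, `IsHW`, `cyc`, `RepOcc` of `S2AB/Defs` (matrix `*`-representations of the complex skew-symmetric matrices).
Here:
* `halfV L = L/2`, `Occ L M X` (occurrence on doubled weights);
* the isotropic basis `uvec i s` (`s = false`: weight `+e_i`, `s = true`: weight `-e_i`), explicit root vectors `rootVec β`;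
* `StarRep.kron` (tensor product), `StarRep.conj` (dual), `StarRep.op` (operators), weight spaces, multiplicities, highest weight spaces;
* `altWD` : alternating sums over `W(D_n)` in the parametrisation of `Def_0456`;
* `LinRep` : representations without `*` on an arbitrary complex vector space (needed for presented modules);
* simple roots as `RootD`, the action of the free algebra on the negative simple root vectors.
-/

set_option autoImplicit false

namespace Claimed.Agent.R282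

open Claims.C0456 Matrix

variable {n : ℕ}

/-- half of a doubled weight -/
noncomputable def halfV (L : Fin n → ℤ) : Vec n := fun i => (L i : ℝ) / 2

/-- `V(X/2)` occurs in `V(L/2) ⊗ V(M/2)` for `so(2n)` -/
def Occ (L M X : Fin n → ℤ) : Prop := RepOcc Ty.D (halfV L) (halfV M) (halfV X)

/-! ## explicit root vectors -/

/-- isotropic basis (not normalised: `u(i,+) · u(i,-) = 2`): `Hc x (uvec i s) = sgnB s * x i • uvec i s` -/
noncomputable def uvec (i : Fin n) (s : Bool) : Ix n → ℂ :=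
  fun p => if p.1 = i then (if p.2 = 0 then 1 else (if s then Complex.I else -Complex.I)) else 0

/-- the root vector of `β = ± e_i ± e_j` : `(u_a u_cᵀ - u_c u_aᵀ)/2` -/
noncomputable def rootVec (β : RootD n) : Matrix (Ix n) (Ix n) ℂ :=
  (1 / 2 : ℂ) • (vecMulVec (uvec β.i β.si) (uvec β.j β.sj) - vecMulVec (uvec β.j β.sj) (uvec β.i β.si))

/-- the opposite root -/
def RootD.neg (β : RootD n) : RootD n := ⟨β.i, β.j, β.ne, !β.si, !β.sj⟩

/-- simple roots as signed roots: `e_i - e_(i+1)` for `i + 1 < n`, `e_(n-2) + e_(n-1)` for `i = n - 1` -/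
def simpleRD (hn : 2 ≤ n) (i : Fin n) : RootD n :=
  if h : (i : ℕ) + 1 < n then ⟨i, ⟨i + 1, h⟩, by intro e; have := congrArg Fin.val e; simp at this, false, true⟩
  else ⟨⟨n - 2, by omega⟩, ⟨n - 1, by omega⟩, by intro e; have := congrArg Fin.val e; simp at this; omega, false, false⟩

/-- `⟨λ, α_i⟩` for the doubled weight `L = 2λ` -/
def cwt (L : Fin n → ℤ) (i : Fin n) : ℕ := ((∑ k, L k * simpleRootD n i k) / 2).toNat

/-! ## operations on `*`-representations -/

theorem rep_kron_bracket {ι₁ ι₂ : Type} [Fintype ι₁] [DecidableEq ι₁] [Fintype ι₂] [DecidableEq ι₂]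
    (A A' C : Matrix ι₁ ι₁ ℂ) (B B' D : Matrix ι₂ ι₂ ℂ) (h1 : C = A * A' - A' * A)
    (h2 : D = B * B' - B' * B) :
    kroneckerMap (· * ·) C (1 : Matrix ι₂ ι₂ ℂ) + kroneckerMap (· * ·) (1 : Matrix ι₁ ι₁ ℂ) D =
    (kroneckerMap (· * ·) A (1 : Matrix ι₂ ι₂ ℂ) + kroneckerMap (· * ·) (1 : Matrix ι₁ ι₁ ℂ) B) *
      (kroneckerMap (· * ·) A' (1 : Matrix ι₂ ι₂ ℂ) + kroneckerMap (· * ·) (1 : Matrix ι₁ ι₁ ℂ) B')
    - (kroneckerMap (· * ·) A' (1 : Matrix ι₂ ι₂ ℂ) + kroneckerMap (· * ·) (1 : Matrix ι₁ ι₁ ℂ) B') *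
      (kroneckerMap (· * ·) A (1 : Matrix ι₂ ι₂ ℂ) + kroneckerMap (· * ·) (1 : Matrix ι₁ ι₁ ℂ) B) := by
  subst h1 h2
  have e1 : kroneckerMap (· * ·) (A * A' - A' * A) (1 : Matrix ι₂ ι₂ ℂ) =
      kroneckerMap (· * ·) (A * A') (1 : Matrix ι₂ ι₂ ℂ) -
        kroneckerMap (· * ·) (A' * A) (1 : Matrix ι₂ ι₂ ℂ) := by
    ext ⟨a, b⟩ ⟨a', b'⟩; simp [kroneckerMap_apply, sub_mul]
  have e2 : kroneckerMap (· * ·) (1 : Matrix ι₁ ι₁ ℂ) (B * B' - B' * B) =
      kroneckerMap (· * ·) (1 : Matrix ι₁ ι₁ ℂ) (B * B') -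
        kroneckerMap (· * ·) (1 : Matrix ι₁ ι₁ ℂ) (B' * B) := by
    ext ⟨a, b⟩ ⟨a', b'⟩; simp [kroneckerMap_apply, mul_sub]
  rw [e1, e2]
  simp only [mul_add, add_mul, ← mul_kronecker_mul, mul_one, one_mul]
  abel

section Ops
variable {ty : Ty} {ι ι₁ ι₂ : Type} [Fintype ι] [DecidableEq ι] [Fintype ι₁] [DecidableEq ι₁]
  [Fintype ι₂] [DecidableEq ι₂]

/-- the operator of `X` -/
noncomputable def StarRep.op (R : StarRep ty n ι) (X : Matrix (Ix n) (Ix n) ℂ) :
    (ι → ℂ) →ₗ[ℂ] (ι → ℂ) := Matrix.toLin' (R.ρ X)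

/-- tensor product -/
noncomputable def StarRep.kron (R₁ : StarRep ty n ι₁) (R₂ : StarRep ty n ι₂) :
    StarRep ty n (ι₁ × ι₂) where
  ρ :=
    { toFun := fun X => kroneckerMap (· * ·) (R₁.ρ X) (1 : Matrix ι₂ ι₂ ℂ) +
        kroneckerMap (· * ·) (1 : Matrix ι₁ ι₁ ℂ) (R₂.ρ X)
      map_add' := by
        intro X Y
        simp only [map_add, kroneckerMap_add_left _ (fun a b c => add_mul a b c),
          kroneckerMap_add_right _ (fun a b c => mul_add a b c)]
        abel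
      map_smul' := by
        intro c X
        simp only [map_smul, RingHom.id_apply, smul_add]
        congr 1
        · ext ⟨a, b⟩ ⟨a', b'⟩; simp [kroneckerMap_apply, mul_assoc]
        · ext ⟨a, b⟩ ⟨a', b'⟩; simp [kroneckerMap_apply, mul_left_comm] }
  bracket := by
    intro X Y hX hY
    exact rep_kron_bracket _ _ _ _ _ _ (R₁.bracket X Y hX hY) (R₂.bracket X Y hX hY)
  star := by
    intro X hX
    show kroneckerMap (· * ·) (R₁.ρ Xᴴ) (1 : Matrix ι₂ ι₂ ℂ) +
        kroneckerMap (· * ·) (1 : Matrix ι₁ ι₁ ℂ) (R₂.ρ Xᴴ) =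
      (kroneckerMap (· * ·) (R₁.ρ X) (1 : Matrix ι₂ ι₂ ℂ) +
        kroneckerMap (· * ·) (1 : Matrix ι₁ ι₁ ℂ) (R₂.ρ X))ᴴ
    rw [R₁.star X hX, R₂.star X hX, conjTranspose_add, conjTranspose_kronecker,
      conjTranspose_kronecker, conjTranspose_one, conjTranspose_one]

/-- the dual (= complex conjugate) representation `X ↦ - (ρ X)ᵀ` -/
noncomputable def StarRep.dual (R : StarRep ty n ι) : StarRep ty n ι where
  ρ :=
    { toFun := fun X => - (R.ρ X)ᵀ
      map_add' := by intro X Y; simp [add_comm]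
      map_smul' := by intro c X; simp }
  bracket := by
    intro X Y hX hY
    show -(R.ρ (X * Y - Y * X))ᵀ = (-(R.ρ X)ᵀ) * (-(R.ρ Y)ᵀ) - (-(R.ρ Y)ᵀ) * (-(R.ρ X)ᵀ)
    rw [R.bracket X Y hX hY, transpose_sub, transpose_mul, transpose_mul]
    noncomm_ring
  star := by
    intro X hX
    show -(R.ρ Xᴴ)ᵀ = (-(R.ρ X)ᵀ)ᴴ
    rw [R.star X hX, conjTranspose_neg]
    rfl

/-- elementary tensors -/
def tmul (a : ι₁ → ℂ) (b : ι₂ → ℂ) : ι₁ × ι₂ → ℂ := fun p => a p.1 * b p.2

/-- the tensor product of two subspaces -/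
def tsub (S₁ : Submodule ℂ (ι₁ → ℂ)) (S₂ : Submodule ℂ (ι₂ → ℂ)) : Submodule ℂ (ι₁ × ι₂ → ℂ) :=
  Submodule.span ℂ {c | ∃ a ∈ S₁, ∃ b ∈ S₂, c = tmul a b}

/-- vectors of weight `χ` -/
noncomputable def StarRep.wt (R : StarRep ty n ι) (χ : Vec n) : Submodule ℂ (ι → ℂ) :=
  ⨅ x : Vec n, LinearMap.ker (R.op (Hc x) - ((dot χ x : ℝ) : ℂ) • LinearMap.id)

/-- vectors killed by all positive root vectors -/
noncomputable def StarRep.prim (R : StarRep ty n ι) : Submodule ℂ (ι → ℂ) :=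
  ⨅ β : {β : RootD n // β.Pos ∧ ty.IsRoot β}, LinearMap.ker (R.op (rootVec β.1))

/-- multiplicity of the weight `χ` in an invariant subspace `S` -/
noncomputable def StarRep.mult (R : StarRep ty n ι) (S : Submodule ℂ (ι → ℂ)) (χ : Vec n) : ℕ :=
  Module.finrank ℂ (S ⊓ R.wt χ : Submodule ℂ (ι → ℂ))

/-- number of copies of `V(χ)` in an invariant subspace `S` -/
noncomputable def StarRep.hwMult (R : StarRep ty n ι) (S : Submodule ℂ (ι → ℂ)) (χ : Vec n) : ℕ :=
  Module.finrank ℂ (S ⊓ R.wt χ ⊓ R.prim : Submodule ℂ (ι → ℂ))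

/-- invariant subspaces -/
def StarRep.Inv (R : StarRep ty n ι) (S : Submodule ℂ (ι → ℂ)) : Prop :=
  ∀ X, ty.InG X → ∀ a ∈ S, R.op X a ∈ S

end Ops

/-! ## alternating sums over `W(D_n)` -/

/-- `∑_{w ∈ W(D_n)} det(w) F(w x)` in the parametrisation of `Def_0456` -/
noncomputable def altWD (F : (Fin n → ℤ) → ℤ) (x : Fin n → ℤ) : ℤ :=
  ∑ σ : Equiv.Perm (Fin n), ∑ s : Fin n → Bool,
    if Even (Finset.univ.filter fun i => s i = true).card then
      ((Equiv.Perm.sign σ : ℤˣ) : ℤ) * F (signedPermAct σ s x) else 0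

/-- `m` is a Weyl character of highest weight `M` (doubled weights): finitely supported and `J(ρ) * m = J(M + ρ)` -/
def IsWeylChar2 (M : Fin n → ℤ) (m : (Fin n → ℤ) → ℤ) : Prop :=
  (Function.support m).Finite ∧
    ∀ ν : Fin n → ℤ, altWD (fun y => m (ν - y)) (rho2 n) = altWD (fun y => if ν = y then 1 else 0) (M + rho2 n)

/-- the character of an invariant subspace on doubled weights -/
noncomputable def StarRep.chZ {ty : Ty} {ι : Type} [Fintype ι] [DecidableEq ι] (R : StarRep ty n ι)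
    (S : Submodule ℂ (ι → ℂ)) : (Fin n → ℤ) → ℤ := fun γ => (R.mult S (halfV γ) : ℤ)

/-- the Casimir operator `∑ H_i² + ∑_{β ∈ Φ} e_β e_β^*` (every root occurs twice in `RootD n`) -/
noncomputable def StarRep.casimir {ι : Type} [Fintype ι] [DecidableEq ι] (R : StarRep Ty.D n ι) :
    Matrix ι ι ℂ :=
  ∑ i : Fin n, R.ρ (Hc (Pi.single i 1)) * R.ρ (Hc (Pi.single i 1)) +
    (1 / 2 : ℂ) • ∑ i : Fin n, ∑ j : Fin n, ∑ si : Bool, ∑ sj : Bool,
      if h : i ≠ j then R.ρ (rootVec ⟨i, j, h, si, sj⟩) * (R.ρ (rootVec ⟨i, j, h, si, sj⟩))ᴴ else 0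

/-- `x` is a sum of positive roots with coefficients in `ℕ` (doubled weights, doubled roots) -/
def InQplus (x : Fin n → ℤ) : Prop :=
  ∃ c : {r : Fin n × Fin n × Bool // r.1 < r.2.1} → ℕ, ∑ r, c r • posRoot2 r.1.1 r.1.2.1 r.1.2.2 = x

/-! ## representations without `*` -/

/-- a representation of `so(2n, ℂ)` on an arbitrary complex vector space -/
structure LinRep (n : ℕ) (V : Type) [AddCommGroup V] [Module ℂ V] where
  ρ : Matrix (Ix n) (Ix n) ℂ →ₗ[ℂ] Module.End ℂ V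
  bracket : ∀ X Y, Ty.D.InG X → Ty.D.InG Y → ρ (X * Y - Y * X) = ρ X * ρ Y - ρ Y * ρ X

/-- the action of the free algebra: `f_i ↦` the root vector of `-α_i` -/
noncomputable def LinRep.free {V : Type} [AddCommGroup V] [Module ℂ V] (R : LinRep n V) (hn : 2 ≤ n) :
    FreeAlgebra ℂ (Fin n) →ₐ[ℂ] Module.End ℂ V :=
  FreeAlgebra.lift ℂ fun i => R.ρ (rootVec (simpleRD hn i).neg)

/-- a `*`-representation as a `LinRep` -/
noncomputable def StarRep.toLin {ι : Type} [Fintype ι] [DecidableEq ι] (R : StarRep Ty.D n ι) :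
    LinRep n (ι → ℂ) where
  ρ := (Matrix.toLinAlgEquiv' (R := ℂ) (n := ι)).toLinearMap ∘ₗ R.ρ
  bracket := by
    intro X Y hX hY
    show Matrix.toLinAlgEquiv' (R.ρ (X * Y - Y * X)) = _
    rw [R.bracket X Y hX hY, map_sub, map_mul, map_mul]
    rfl

end Claimed.Agent.R282
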