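import Claimed.Agent.R282.Rep.Iface
import Claimed.Agent.R282.Top.Leaves
import Claimed.Agent.R282.S2AB.Contracts

/-!
# Row 282 : the fields `sym12`, `sym23`, `scale`, `moment`, `dq` of `TopC` from the public contracts of `Rep/Iface` (glue, no sorry of its own)
-/

set_option autoImplicit false

open Claims Claims.C0456

namespace Claimed.Agent.R282

variable {n : ℕ}

theorem half_eq_halfV (L : Fin n → ℤ) : half L = halfV L := rfl

theorem pairD_eq_cwt (L : Fin n → ℤ) : pairD n L = cwt L := rfl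

theorem forTop_sym12 (L M K : Fin n → ℤ) (hn : 2 ≤ n) (hL : IsDominantWeight2 L)
    (hM : IsDominantWeight2 M) (hK : IsDominantWeight2 K) (h : HasTensorInvariant L M K) :
    HasTensorInvariant M L K := by
  unfold HasTensorInvariant at h ⊢
  have hX := top_dual_dom K hK
  exact (rep_bridge hn M L _ hM hL hX).2 ((occ_swap L M _).1 ((rep_bridge hn L M _ hL hM hX).1 h))

theorem forTop_sym23 (L M K : Fin n → ℤ) (hn : 2 ≤ n) (hL : IsDominantWeight2 L)
    (hM : IsDominantWeight2 M) (hK : IsDominantWeight2 K) (h : HasTensorInvariant L M K) :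
    HasTensorInvariant L K M := by
  unfold HasTensorInvariant at h ⊢
  exact (rep_bridge hn L K _ hL hK (top_dual_dom M hM)).2
    ((occ_rot hn L M K hL hM hK).1 ((rep_bridge hn L M _ hL hM (top_dual_dom K hK)).1 h))

theorem forTop_scale (L M X : Fin n → ℤ) (hn : 2 ≤ n) (hL : IsDominantWeight2 L)
    (hM : IsDominantWeight2 M) (hX : IsDominantWeight2 X) (N : ℕ) (hN : 1 ≤ N)
    (h : tensorMult L M X ≠ 0) : tensorMult (N • L) (N • M) (N • X) ≠ 0 :=
  (rep_bridge hn _ _ _ (top_smul_dom N L hL) (top_smul_dom N M hM) (top_smul_dom N X hX)).2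
    (occ_smul L M X ((rep_bridge hn L M X hL hM hX).1 h) N hN)

theorem halfV_nsmul (N : ℕ) (L : Fin n → ℤ) : halfV (N • L) = (N : ℝ) • halfV L := by
  funext i
  simp [halfV, mul_div_assoc]

theorem forTop_moment (L M X : Fin n → ℤ) (hn : 2 ≤ n) (hL : IsDominantWeight2 L)
    (hM : IsDominantWeight2 M) (hX : IsDominantWeight2 X) (N : ℕ) (hN : 1 ≤ N)
    (h : tensorMult (N • L) (N • M) (N • X) ≠ 0) : MomentD (half L) (half M) (half X) := by
  have h1 : Occ (N • L) (N • M) (N • X) :=
    (rep_bridge hn _ _ _ (top_smul_dom N L hL) (top_smul_dom N M hM) (top_smul_dom N X hX)).1 h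
  have h2 := repOcc_moment _ _ _ h1
  have h3 := moment_smul _ _ _ ((N : ℝ)⁻¹) h2
  have hN0 : (N : ℝ) ≠ 0 := by positivity
  simp only [halfV_nsmul, smul_smul, inv_mul_cancel₀ hN0, one_smul] at h3
  exact h3

theorem forTop_dq (L M X : Fin n → ℤ) (hn : 2 ≤ n) (hL : IsDominantWeight2 L)
    (hM : IsDominantWeight2 M) (hX : IsDominantWeight2 X) :
    tensorMult L M X ≠ 0 ↔
      ∃ d : Fin n → ℕ, (∀ k, L k + M k - X k = 2 * ∑ i, (d i : ℤ) * simpleRootD n i k) ∧
        DQne ℚ n (pairD n L) (pairD n M) d := by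
  rw [rep_bridge hn L M X hL hM hX, rep_dq hn L M X hL hM hX]
  refine exists_congr fun d => and_congr ?_ Iff.rfl
  constructor
  · intro h k
    have := congrFun h k
    simpa [Finset.sum_apply] using this
  · intro h
    funext k
    simpa [Finset.sum_apply] using h k

end Claimed.Agent.R282
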