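import Claimed.Agent.R282.Rep.Shift.Mom
import Claimed.Agent.R282.Rep.Shift.Sched
import Claimed.Agent.R282.Rep.Shift.Heart

/-!
# Row 282 : type `A` from type `D` by a central shift (architect helper103) -- GLUE, no sorry of its own

`SchedMoment .A` and `BasicSchedule .A` follow from the type `D` statements.  Leaves: `Shift/Mom`, `Shift/Sched`, `Shift/Heart`.
-/

set_option autoImplicit false

namespace Claimed.Agent.R282

variable {n : ℕ}

/-- (S4'') an `A`-schedule is a `D`-schedule -/
theorem sched_A_to_D (lam xi : Vec n) (θ : Shape n) (w0 : WD n) (l : List (ℝ × RootD n))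
    (h : IsSched .A lam θ xi w0 l) : IsSched .D lam θ xi w0 l :=
  ⟨trivial, fun _ _ => trivial, h.times_mem, h.sorted, h.valid,
    let ⟨w, _, hw⟩ := h.endpoint; ⟨w, trivial, hw⟩⟩

/-- a positive `A`-dominant vector is `D`-dominant -/
theorem dom_of_domA_pos (v : Vec n) (h : DomA v) (hp : ∀ i, 0 < v i) : Dom v := by
  intro i j hij
  rw [abs_of_pos (hp j)]
  exact h i j hij

theorem domA_shift (v : Vec n) (c : ℝ) (h : DomA v) : DomA (v + c • oneV n) := by
  intro i j hij
  have := h i j hij
  simp only [Pi.add_apply, Pi.smul_apply, oneV, smul_eq_mul, mul_one]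
  linarith

theorem shape_shift_shift (θ : Shape n) (c : ℝ) : (θ.shiftOne c).shiftOne (-c) = θ := by
  unfold Shape.shiftOne
  rw [List.map_map]
  conv_rhs => rw [← List.map_id θ]
  apply List.map_congr_left
  intro v _
  funext i
  simp

theorem shape_shift_length (θ : Shape n) (c : ℝ) : (θ.shiftOne c).length = θ.length := by
  simp [Shape.shiftOne]

/-- **Lemma 2.6 for permutation systems** -/
theorem schedMoment_A_of_D (hD : SchedMoment .D) : SchedMoment .A := by
  intro n lam xi θ hθ hs
  by_cases hne : θ = []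
  · subst hne
    exact schedMoment_A_nil lam xi hs
  obtain ⟨w0, l, h⟩ := hs
  obtain ⟨s, c, h1, _, h3, h4, h5⟩ := exists_shift lam xi θ
  have hA := sched_shift lam xi θ w0 l s c h
  have hdom : ∀ v ∈ θ.shiftOne c, Ty.D.Dom v := by
    intro v hv
    refine dom_of_domA_pos v ?_ (h1 v hv)
    obtain ⟨u, hu, rfl⟩ := List.mem_map.mp hv
    exact domA_shift u c (hθ u hu)
  have hM : MomentD _ _ _ := hD n _ _ _ hdom ⟨w0, l, sched_A_to_D _ _ _ _ _ hA⟩
  have hM' := momentA_of_momentD_pos _ _ _ h3 (h5 hne) h4 (sched_A_central _ _ _ _ _ hA) hM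
  rw [shape_shift_sum] at hM'
  exact (momentA_shift lam θ.sum xi s ((θ.length : ℝ) * c)).1 hM'

/-- **Prop 2.2 for permutation systems** -/
theorem basicSchedule_A_of_D (hD : BasicSchedule .D) : BasicSchedule .A := by
  intro n lam mu xi θ hne hθ hmu hM
  obtain ⟨s, c, h1, h2, _, h4, _⟩ := exists_shift lam xi θ
  have hdom : ∀ v ∈ θ.shiftOne c, Ty.D.Dom v := by
    intro v hv
    refine dom_of_domA_pos v ?_ (h1 v hv)
    obtain ⟨u, hu, rfl⟩ := List.mem_map.mp hv
    exact domA_shift u c (hθ u hu)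
  have hne' : θ.shiftOne c ≠ [] := by
    intro h0
    exact hne (List.map_eq_nil_iff.mp h0)
  have hMA : MomentA (lam + s • oneV n) (θ.shiftOne c).sum (xi + (s + (θ.length : ℝ) * c) • oneV n) := by
    rw [shape_shift_sum, hmu]
    exact (momentA_shift lam mu xi s ((θ.length : ℝ) * c)).2 hM
  obtain ⟨w0, l, hs, hi, hb⟩ := hD n _ _ _ (θ.shiftOne c) hne' hdom rfl (momentD_of_momentA _ _ _ hMA)
  obtain ⟨w0', l', hs', hi', hb'⟩ := sched_D_to_A _ _ _ h1 h2 h4 (momentA_central _ _ _ hMA) w0 l hs hi hb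
  refine ⟨w0', l', ?_, hi', ?_⟩
  · have := sched_shift _ _ _ w0' l' (-s) (-c) hs'
    rw [shape_shift_shift, shape_shift_length] at this
    convert this using 1
    · funext i; simp
    · funext i; simp; ring
  · have := noBlock_shift _ _ w0' hs'.w0_mem l' hs'.roots_mem (-s) (-c) hb'
    rw [shape_shift_shift] at this
    convert this using 2
    funext i; simp

end Claimed.Agent.R282
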